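import Vale.Agent.P088.R2.H558.G.Shape
import Vale.Agent.P088.R2.H493.EP.CtL

/-!
# P088, stage 3, EST': the rows of the zones from theorems about one zone

`ZR0.of`, `ZRI.of`, `ZR2.of`, `ZRB.of`, `ZRT.of`, `ZRP.of`, `ZRF.of`: the rows `ZR..` of helper558 from
`ZoneThm` statements in the literal letters.
-/

open Set Filter MeasureTheory
open scoped ContDiff Topology Matrix

noncomputable section

namespace Vale.Agent.P088.R2.H591.X

open Vale.Agent.P088.LR Vale.Agent.P088.HY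
open Vale.Agent.P088.R2.H31.EP
open Vale.Agent.P088.R2.H551.E
open Vale.Agent.P088.R2.H867.EP (Zo zos mem_zos)
open Vale.Agent.P088.R2.H455.E
open Vale.Agent.P088.R2.H558.G

variable {n : ℕ}

/-- A row without a small parameter. -/
theorem zoE_all {L : Lc n} {k : Zo} (h : ∀ e, SmE e → RowZo (Mz L) (coz L e) k) : ZoE L k :=
  ⟨fun _ => 1, ⟨fun _ => rfl, fun _ => one_pos⟩, fun e he _ => h e he⟩

/-- A statement for all small parameters. -/
def Sme (P : (Cst → ℝ) → Prop) : Prop := ∃ th : Cst → ℝ, SmE th ∧ ∀ e : Cst → ℝ, SmE e →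
  (∀ q, e q ≤ th q) → P e

/-- `z0` from its theorem in the letters of the table (any `k`). -/
theorem ZR0.of {c C s : Cst → ℝ} (hc : (∀ q, 0 < c q) ∧ NB_c' c) (hC : (∀ q, 0 < C q) ∧ NB_c' C)
    (hs : (∀ q, 0 < s q ∧ s q ≤ 1) ∧ NB_c' s)
    (h : Sme fun e => ∀ kz : Cst → Pk n → VV n → ℝ, ZoneThm n (fun q d => d.ch q .z0)
      (fun q d => (H165.Tab.M0 (nu kz q d) (c q) (s q * (q.σ / q.R))).sm fun z =>
        d.ch q .z0 z ^ 2)
      (fun q d => H165.Tab.c0 (nu kz q d) (C q) (s q * (q.σ / q.R))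
        (H867.Z.sq1 (d.ch q .z0)) (e q))) : ZR0 n := by
  refine ⟨c, C, s, hc, hC, hs, ?_⟩
  rintro L rfl rfl rfl
  obtain ⟨th, h1, h2⟩ := h
  exact ⟨th, h1, fun e he het => h2 e he het L.kz⟩

/-- `zI` from its theorem in the letters of the table (any `k`). -/
theorem ZRI.of {c C cN CN : Cst → ℝ} (hc : (∀ q, 0 < c q) ∧ NB_c₀ c)
    (hC : (∀ q, 0 < C q) ∧ NB_c₀ C) (hcN : (∀ q, 0 < cN q) ∧ NB_c' cN)
    (hCN : (∀ q, 0 < CN q) ∧ NB_c' CN)
    (h : ∀ kz : Cst → Pk n → VV n → ℝ, ZoneThm n (fun q d => d.ch q .zI)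
      (fun q d => (H165.Tab.MI (nu kz q d) (c q) +
        H338.C.TL (cN q) (H338.TC.Na d) (H338.TC.rx q d) (H338.TC.ry q d)).sm fun z =>
          d.ch q .zI z ^ 2)
      (fun q d => H165.Tab.cI (nu kz q d) (C q) (H867.Z.sq1 (d.ch q .zI))
          (H867.Z.sqp (d.ch q .zI)) +
        cTu (CN q) (H338.TC.Na d) (H338.TC.rx q d) (H338.TC.ry q d)
          (H867.Z.sq1 (d.ch q .zI)))) : ZRI n := by
  refine ⟨c, C, cN, CN, hc, hC, hcN, hCN, ?_⟩
  rintro L rfl rfl rfl rfl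
  exact zoE_all fun e _ => h L.kz

/-- `z2a`, `z2b` from their theorems. -/
theorem ZR2.of {F : Lf n} {C K : Cst → ℝ} (hC : (∀ q, 0 < C q) ∧ NB_ηc C)
    (hK : (∀ q, 0 < K q) ∧ NB_ηc K)
    (h : ∀ k ∈ ({.z2a, .z2b} : Set Zo), ZoneThm n (fun q d => d.ch q k)
      (fun q d => (H165.Tab.MII (nu F.kz q d)).sm fun z => d.ch q k z ^ 2)
      (fun q d => H165.Tab.cII (nu F.kz q d) (C q)
        (H867.Z.Zc (K q) 1 (H464.Cu.rq (gi d.s₁)) (d.E q) (d.N q) (F.kz q d) (d.ch q k)))) :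
    ZR2 F := by
  refine ⟨C, K, hC, hK, ?_⟩
  rintro L hk rfl rfl
  constructor
  · refine zoE_all fun e _ => ?_
    have := h .z2a (by simp)
    rw [← hk] at this
    exact this
  · refine zoE_all fun e _ => ?_
    have := h .z2b (by simp)
    rw [← hk] at this
    exact this

/-- `zB` from its theorem (any `k`). -/
theorem ZRB.of {F : Lf n} {c C K : Cst → ℝ} (hc : (∀ q, 0 < c q) ∧ NB_ηc c)
    (hC : (∀ q, 0 < C q) ∧ NB_ηc C) (hK : (∀ q, 0 < K q) ∧ NB_ηc K)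
    (h : ∀ kz : Cst → Pk n → VV n → ℝ, ZoneThm n (fun q d => d.ch q .zB)
      (fun q d => (H165.Tab.MB (nu kz q d) (c q)).sm fun z => d.ch q .zB z ^ 2)
      (fun q d => H165.Tab.cB (nu kz q d) (C q) (F.ZB (K q) q d) (F.ZB' (K q) q d))) :
    ZRB F := by
  refine ⟨c, C, K, hc, hC, hK, ?_⟩
  rintro L h1 h2 rfl rfl
  refine zoE_all fun e _ => ?_
  have h3 := h L.kz
  have e1 : ∀ q d, F.ZB (K q) q d = L.ZB q d := fun q d => by rw [h1]
  have e2 : ∀ q d, F.ZB' (K q) q d = L.ZB' q d := fun q d => by rw [h2]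
  simp only [e1, e2] at h3
  exact h3

/-- `T1`, `T2` from their theorems. -/
theorem ZRT.of {c C : Cst → ℝ} (hc : (∀ q, 0 < c q) ∧ NB_rT c) (hC : (∀ q, 0 < C q) ∧ NB_c' C)
    (h1 : ZoneThm n (fun q d => d.ch q .T1)
      (fun q d => (H509.PT.MT1 (c q) (H338.TC.Na d)).sm fun z => d.ch q .T1 z ^ 2)
      (fun q d => H509.PT.coT1 (C q) (H338.TC.Na d) (H354.T.etx q d)))
    (h2 : ZoneThm n (fun q d => d.ch q .T2)
      (fun q d => (H509.PT.MT2 (c q) (H338.TC.Na d)).sm fun z => d.ch q .T2 z ^ 2)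
      (fun q d => H509.PT.coT2 (C q) (H338.TC.Na d) (H354.T.ety q d))) : ZRT n := by
  refine ⟨c, C, hc, hC, ?_⟩
  rintro L rfl rfl
  exact ⟨zoE_all fun e _ => h1, zoE_all fun e _ => h2⟩

/-- `P1`, `P2` from their theorems. -/
theorem ZRP.of {F : Lf n} {c C : Cst → ℝ} (hc : (∀ q, 0 < c q) ∧ NB_rT c)
    (hC : (∀ q, 0 < C q) ∧ NB_rT C)
    (h1 : ZoneThm n (fun q d => d.ch q .P1)
      (fun q d => (H660.P.MP d.sx d.sy (d.W q) (F.GP q d) (c q)).sm fun z => d.ch q .P1 z ^ 2)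
      (fun q d => H660.P.coP d.sx d.sy (d.W q) (F.GP q d) (F.om .P1 q d) (C q)))
    (h2 : ZoneThm n (fun q d => d.ch q .P2)
      (fun q d => (H660.P.MPm d.sx d.sy (d.W q) (F.GP q d) (c q)).sm fun z => d.ch q .P2 z ^ 2)
      (fun q d => H660.P.coPm d.sx d.sy (d.W q) (F.GP q d) (F.om .P2 q d) (C q))) : ZRP F := by
  refine ⟨c, C, hc, hC, ?_⟩
  rintro L e1 e2 rfl rfl
  constructor
  · refine zoE_all fun e _ => ?_
    rw [← e1, ← e2] at h1
    exact h1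
  · refine zoE_all fun e _ => ?_
    rw [← e1, ← e2] at h2
    exact h2

/-- The other leaves. -/
theorem ZRF.of {F : Lf n} {k : Zo} (hk : k ∈ ({.RSn, .RSf, .iH, .iF, .iS} : Set Zo))
    (h : ZoneThm n (fun q d => d.ch q k) (fun q d => (F.FM k q d).sm fun z => d.ch q k z ^ 2)
      (fun q d => F.FC k q d)) : ZRF F k := by
  rintro L e1 e2
  refine zoE_all fun e _ => ?_
  rw [← e1, ← e2] at h
  rcases hk with rfl | rfl | rfl | rfl | rfl
  · exact h
  · exact h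
  · exact h
  · exact h
  · exact h

/-! ## Monotonicity -/

/-- **Change of the letters**: the margin `M'` is smaller, the cost `co'` larger. -/
theorem zthm_mono {χ : Cst → Pk n → VV n → ℝ} {M M' co co' : Cst → Pk n → Q8 (VV n)}
    (h : ZoneThm n χ M co)
    (h1 : EvC fun q => ∀ d : Pk n, PkOk q d → ((M q d).Ct univ ∧ (co q d).Ct univ ∧
      (M' q d).Ct univ ∧ (co' q d).Ct univ) ∧ ∀ z, ∀ a b : VV n → ℝ,
      (M' q d).dens d.sx d.sy 0 0 (d.W q) a b z + (co q d).dens d.sx d.sy 0 0 (d.W q) a b z ≤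
        (M q d).dens d.sx d.sy 0 0 (d.W q) a b z + (co' q d).dens d.sx d.sy 0 0 (d.W q) a b z) :
    ZoneThm n χ M' co' := by
  refine ((EvC.and h h1).and (H493.EP.evCF n)).mono ?_
  rintro q ⟨⟨h, h1⟩, hC⟩ d hd
  obtain ⟨⟨c1, c2, c3, c4⟩, hd1⟩ := h1 d hd
  have c := hC d hd
  exact H338.C.zone_mono c.ox c.oy contDiffOn_const contDiffOn_const c.W.contDiffOn (h d hd)
    c1 c2 c3 c4 fun z _ a b => hd1 z a b

/-- The same from the coefficients. -/
theorem zthm_le {χ : Cst → Pk n → VV n → ℝ} {M M' co co' : Cst → Pk n → Q8 (VV n)}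
    (h : ZoneThm n χ M co)
    (h1 : EvC fun q => ∀ d : Pk n, PkOk q d → ((M q d).Ct univ ∧ (co q d).Ct univ ∧
      (M' q d).Ct univ ∧ (co' q d).Ct univ) ∧ ∀ z, Q8.Le (M' q d) (M q d) z ∧
        Q8.Le (co q d) (co' q d) z) : ZoneThm n χ M' co' :=
  zthm_mono h (h1.mono fun _ hq d hd => ⟨(hq d hd).1, fun z _ _ =>
    add_le_add (Q8.dens_le ((hq d hd).2 z).1) (Q8.dens_le ((hq d hd).2 z).2)⟩)

end Vale.Agent.P088.R2.H591.X
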