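import Vale.Agent.P088.R2.H591.X.Of
import Vale.Agent.P088.R2.H942.Pk.Kz
import Vale.Agent.P088.R2.H867.Z.HoL
import Vale.Agent.P088.R2.H660.P.Rows
import Vale.Agent.P088.R2.H312.S.Zone
import Vale.Agent.P088.R2.H53.RS.Lt
import Vale.Agent.P088.R2.H303.F.Lt
import Vale.Agent.P088.R2.H380.INF.Let
import Vale.Agent.P088.R2.H168.INF.Spec2

/-!
# P088, stage 3, EST': the literal functions of the letters
-/

open Set Filter MeasureTheory
open scoped ContDiff Topology Matrix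

noncomputable section

namespace Vale.Agent.P088.R2.H591.X

open Vale.Agent.P088.LR Vale.Agent.P088.HY
open Vale.Agent.P088.R2.H31.EP
open Vale.Agent.P088.R2.H551.E
open Vale.Agent.P088.R2.H867.EP (Zo zos mem_zos)
open Vale.Agent.P088.R2.H455.E
open Vale.Agent.P088.R2.H558.G

variable {n : ℕ}

/-- The margins of the leaves `RSn`, `RSf`, `iH`, `iF`, `iS`. -/
def FM0 (k : Zo) (q : Cst) (d : Pk n) : Q8 (VV n) := match k with
  | .RSn => H747.SW.MA d.sx d.sy (d.W q) (H312.S.mRS q d) (1 / 200)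
  | .RSf => H747.SW.MA d.sx d.sy (d.W q) (H53.RS.mRSf d q) (1 / 200)
  | .iH => H168.INF.MiH q d
  | .iF => H303.F.MzF q d
  | .iS => H380.INF.MiS q d
  | _ => 0

/-- The costs of the leaves `RSn`, `RSf`, `iH`, `iF`, `iS`. -/
def FC0 (k : Zo) (q : Cst) (d : Pk n) : Q8 (VV n) := match k with
  | .RSn => H747.SW.coA d.sx d.sy (d.W q) (H312.S.mRS q d) (d.ch q .RSn) (1 / 200)
  | .RSf => H747.SW.coA d.sx d.sy (d.W q) (H53.RS.mRSf d q) (d.ch q .RSf) (1 / 200)
  | .iH => H168.INF.CiH (d.ch q .iH) q d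
  | .iF => H303.F.cozF q d
  | .iS => H380.INF.CiS (d.ch q .iS) q d
  | _ => 0

/-- **The literal functions.** -/
def F0 (n : ℕ) : Lf n where
  kz q d := H942.Pk.kz q d
  ZB K q d := d.ZB q K
  ZB' K q d := d.ZB' q K
  GP q d := H747.A.GG q d
  om k q d := H660.P.omP d (d.ch q k)
  FM k q d := FM0 k q d
  FC k q d := FC0 k q d
  kA := 1 / 2
  kA0 := by norm_num
  kA1 := le_rfl

end Vale.Agent.P088.R2.H591.X
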