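import Vale.Agent.P088.R2.H591.X.F0
import Vale.Agent.P088.R2.H942.Pk.Mu
import Vale.Agent.P088.R2.H493.EP.CtL

/-!
# P088, stage 3, EST': continuity of `kz`, `ZB`, `ZB'`
-/

open Set Filter MeasureTheory
open scoped ContDiff Topology Matrix

noncomputable section

namespace Vale.Agent.P088.R2.H591.X

open Vale.Agent.P088.LR Vale.Agent.P088.HY
open Vale.Agent.P088.R2.H31.EP
open Vale.Agent.P088.R2.H551.E
open Vale.Agent.P088.R2.H455.E
open Vale.Agent.P088.R2.H493.EP (CF evCF)
open Vale.Agent.P088.R2.H464.Cu (mid)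

variable {n : ℕ} {q : Cst} {d : Pk n}

/-! ### Zone II -/

theorem hm_pos' {A C t s : ℝ} (hA : 0 < A) : 0 < H932.EP.hm A C t s := by
  rcases le_or_gt 0 s with h | h
  · exact H932.EP.hm_pos hA h
  · have h1 : s ^ (5 / 2 : ℝ) = 0 := by
      rw [Real.rpow_def_of_neg h]
      have h2 : Real.cos (5 / 2 * Real.pi) = 0 := by
        have h3 : (5 / 2 * Real.pi : ℝ) = Real.pi / 2 + 2 * Real.pi := by ring
        rw [h3, Real.cos_add_two_pi, Real.cos_pi_div_two]
      rw [h2, mul_zero]
    unfold H932.EP.hm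
    rw [h1]
    have := Real.exp_pos (-(C * (s - t)))
    simpa using this

theorem c_mu2 {A C t : ℝ} (hA : 0 < A) : Continuous (H932.EP.mu2 A C t) := by
  refine Continuous.inv₀ ?_ fun s => (hm_pos' hA).ne'
  refine ((Real.continuous_rpow_const (by norm_num)).div_const A).add ?_
  exact Real.continuous_exp.comp (by fun_prop)

/-- **The weight of zone II.** -/
theorem kz_ct (c : CF q d) : ContinuousOn (H942.Pk.kz q d) (CF.Om d) ∧
    ∀ z ∈ CF.Om d, 0 < H942.Pk.kz q d z := by
  have hK : ∀ z, 0 < d.Kf q z := fun z => c.ok.top.k0 _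
  have hm : ∀ z ∈ CF.Om d, 0 < d.m q z := fun z hz => mul_pos (CF.E0 z) hz
  have hM : ∀ s, 0 < H942.Pk.Mv q s := fun s => inv_pos.2 (hm_pos' H942.Pk.Am_pos)
  have cm : Continuous (d.m q) := c.cE.mul c.cr2
  have cmid : Continuous (mid : VV n → V n) := by
    unfold mid
    fun_prop
  have cM : Continuous fun z : VV n => H942.Pk.Mv q (d.l (mid z)) :=
    (c_mu2 H942.Pk.Am_pos).comp (c.ok.lev.sm.continuous.comp cmid)
  constructor
  · have h1 : ContinuousOn (fun z => 1 / 10 ^ 9 * (d.m q z *
        (d.Kf q z / (d.Kf q z + d.m q z) + H942.Pk.Mv q (d.l (mid z)) + q.σ * q.R⁻¹)))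
        (CF.Om d) := by
      refine continuousOn_const.mul (cm.continuousOn.mul (((c.cK.continuousOn.div
        (c.cK.add cm).continuousOn fun z hz => ?_).add cM.continuousOn).add continuousOn_const))
      exact (add_pos (hK z) (hm z hz)).ne'
    exact h1.congr fun z _ => H942.Pk.kz_eq q d z
  · intro z hz
    rw [H942.Pk.kz_eq]
    have h1 := hK z
    have h2 := hm z hz
    have h3 := hM (d.l (mid z))
    have h4 := c.σ0
    have h5 := c.R0
    positivity

/-! ### The core -/

theorem c_St : Continuous H867.Z.St := Real.smoothTransition.continuous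

theorem ZB_ct (c : CF q d) (K : ℝ) : Continuous (d.ZB q K) ∧ Continuous (d.ZB' q K) := by
  have cm : Continuous (d.m q) := c.cE.mul c.cr2
  have m0 : ∀ z, 0 ≤ d.m q z := fun z => mul_nonneg (CF.E0 z).le (c.r2n z)
  have v : ∀ i, Continuous (d.cv q i) := fun i => (c.s.cv i).continuous
  have h1 : Continuous (d.T1B q) := by
    have a1 := v .co
    have a2 := v .eB
    have a3 : Continuous fun z => H867.EP.cs (d.cv q .inf z) :=
      (Real.continuous_cos.comp H867.EP.an_sm.continuous).comp (v .inf)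
    refine (((c_St.comp ?_).mul (c_St.comp ?_)).mul (c_St.comp ?_)).mul a3 <;> fun_prop
  have h2 : Continuous (d.T2B q) := by
    have a1 := v .co
    have a2 := v .eB
    have a3 : Continuous fun z => H867.EP.cs (d.cv q .inf z) :=
      (Real.continuous_cos.comp H867.EP.an_sm.continuous).comp (v .inf)
    refine (((c_St.comp ?_).mul (c_St.comp ?_)).mul (c_St.comp ?_)).mul a3 <;> fun_prop
  refine ⟨(continuous_const.mul ((continuous_const.mul h1).add (h2.mul
    ((continuous_const.add cm).div ((c.cN.add continuous_const).add cm) fun z => ?_)))),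
    continuous_const.mul (((continuous_const.mul h1).div ((continuous_const.add cm).pow 2)
    fun z => ?_).add (h2.div c.cE fun z => (CF.E0 z).ne'))⟩
  · exact (add_pos_of_pos_of_nonneg (add_pos (c.N0 z) one_pos) (m0 z)).ne'
  · exact (pow_pos (add_pos_of_pos_of_nonneg one_pos (m0 z)) 2).ne'

end Vale.Agent.P088.R2.H591.X
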