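import Vale.Agent.P088.R2.H591.X.CtI
import Vale.Agent.P088.R2.H591.X.CtK

/-!
# P088, stage 3, EST': row `ct` for the literal functions `F0`
-/

open Set Filter MeasureTheory
open scoped ContDiff Topology Matrix

noncomputable section

namespace Vale.Agent.P088.R2.H591.X

open Vale.Agent.P088.LR Vale.Agent.P088.HY
open Vale.Agent.P088.R2.H31.EP
open Vale.Agent.P088.R2.H551.E Vale.Agent.P088.R2.H961.GW Vale.Agent.P088.R2.H960.W
open Vale.Agent.P088.R2.H867.EP (Zo Off)
open Vale.Agent.P088.R2.H455.E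
open Vale.Agent.P088.R2.H341.EP
open Vale.Agent.P088.R2.H493.EP (CF evCF LcCt ctE)
open Vale.Agent.P088.R2.H404.INF (InfC evInf)
open Vale.Agent.P088.R2.H558.G (Lf Lit)

variable {n : ℕ}

/-- The letters with trivial free functions. -/
def Ltr (L : Lc n) : Lc n :=
  { L with
    GP := fun _ _ _ => 0
    om := fun _ _ _ _ => 0
    FM := fun _ _ _ => 0
    FC := fun _ _ _ => 0 }

theorem Ltr_ok {L : Lc n} (h : L.Ok) : (Ltr L).Ok :=
  { c0 := h.c0, C0 := h.C0, cs := h.cs, cI := h.cI, CI := h.CI, cN := h.cN, CN := h.CN,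
    C2 := h.C2, K2 := h.K2, cB := h.cB, CB := h.CB, cT := h.cT, CT := h.CT, kA := h.kA,
    μA := h.μA, cP := h.cP, CP := h.CP }

theorem ct_zero {U : Set (VV n)} : (0 : Q8 (VV n)).Ct U := Q8.Ct.zero

theorem Ltr_ct {L : Lc n} (hF : Lit (F0 n) L) : LcCt (Ltr L) where
  kz := (evCF n).mono fun q h d ok => by
    have e : (Ltr L).kz q d = H942.Pk.kz q d := congrFun (congrFun hF.kz q) d
    rw [e]
    exact kz_ct (h d ok)
  ZB := by
    obtain ⟨K, -, -, e1, e2⟩ := hF.ZB
    refine (evCF n).mono fun q h d ok => ?_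
    have e3 : (Ltr L).ZB q d = d.ZB q (K q) := congrFun (congrFun e1 q) d
    have e4 : (Ltr L).ZB' q d = d.ZB' q (K q) := congrFun (congrFun e2 q) d
    rw [e3, e4]
    exact ZB_ct (h d ok) (K q)
  GP := EvC.of fun _ _ _ => ⟨continuousOn_const, ⟨continuous_const, fun _ _ => rfl⟩,
    ⟨continuous_const, fun _ _ => rfl⟩⟩
  F _ _ := (evCF n).mono fun q h d ok =>
    ⟨Q8.Ct.sm (((h d ok).s.ch _).continuous.pow 2).continuousOn ct_zero, ct_zero⟩

/-- **Row `ct` for the literal functions.** -/
theorem ctF {L : Lc n} (hL : L.Ok) (hF : Lit (F0 n) L) : CtE L := by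
  intro e he
  have h0 := ctE (Ltr_ok hL) (Ltr_ct hF) e he
  refine ((h0.and (evCF n)).and (evInf.and (evRq n))).mono ?_
  rintro q ⟨⟨h1, h2⟩, h3, h4⟩ d ok k
  have c := h2 d ok
  have hq := h4 d ok
  have eG : L.GP q d = H747.A.GG q d := congrFun (congrFun hF.GP q) d
  have eo : ∀ k, L.om k q d = H660.P.omP d (d.ch q k) := fun k =>
    congrFun (congrFun (congrFun hF.om k) q) d
  have eM : ∀ k, L.FM k q d = FM0 k q d := fun k => congrFun (congrFun (congrFun hF.FM k) q) d
  have eC : ∀ k, L.FC k q d = FC0 k q d := fun k => congrFun (congrFun (congrFun hF.FC k) q) d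
  have t := h1 d ok k
  cases k
  case iH =>
    have := iH_ct c
    rw [← eM, ← eC] at this
    exact this
  case iF =>
    have := iF_ct c h3 hq
    rw [← eM, ← eC] at this
    exact this
  case iS =>
    have := iS_ct c
    rw [← eM, ← eC] at this
    exact this
  case RSn =>
    have := rsn_ct c
    rw [← eM, ← eC] at this
    exact this
  case RSf =>
    have := rsf_ct c hq
    rw [← eM, ← eC] at this
    exact this
  case z0 => exact t
  case zI => exact t
  case z2a => exact t
  case z2b => exact t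
  case zB => exact t
  case T1 => exact t
  case T2 => exact t
  case A1 => exact t
  case A2 => exact t
  case Af => exact t
  case P1 =>
    have := (pass_ct c (k := .P1) (by unfold Off; decide) (r := L.cP q) (C := L.CP q)).1
    rw [← eG, ← eo] at this
    exact this
  case P2 =>
    have := (pass_ct c (k := .P2) (by unfold Off; decide) (r := L.cP q) (C := L.CP q)).2
    rw [← eG, ← eo] at this
    exact this

end Vale.Agent.P088.R2.H591.X
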