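import Vale.Agent.P088.R2.H591.X.CtR

/-!
# P088, stage 3, EST': continuity of the letters of `iF`, `iS`, `iH`
-/

open Set Filter MeasureTheory
open scoped ContDiff Topology Matrix

noncomputable section

namespace Vale.Agent.P088.R2.H591.X

open Vale.Agent.P088.LR Vale.Agent.P088.HY
open Vale.Agent.P088.R2.H31.EP
open Vale.Agent.P088.R2.H551.E Vale.Agent.P088.R2.H961.GW Vale.Agent.P088.R2.H960.W
open Vale.Agent.P088.R2.H867.EP (Zo Off)
open Vale.Agent.P088.R2.H455.E
open Vale.Agent.P088.R2.H341.EP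
open Vale.Agent.P088.R2.H493.EP (CF evCF)
open Vale.Agent.P088.R2.H404.INF (InfC evInf far_supp)
open Vale.Agent.P088.R2.H768.FarJ (jφ jr)

section gen

variable {E ι : Type*} [NormedAddCommGroup E] [NormedSpace ℝ E] [Fintype ι] {σ τ : Sl E ι}
  {U Ω : Set E} {θ W χ m₁ m₂ lam : E → ℝ} {κ₀ η : ℝ}

theorem sEta (ok : σ.Ok U θ) (i : ι) : Sm U (σ.η i) := ok.rs.fd ok.op _

theorem sHc (ok : σ.Ok U θ) (hW : Sm U W) (i l : ι) : Sm U (σ.Hc W i l) := by
  have d1 := fun k => ok.sD hW k
  have d2 := fun j k => ok.sD (d1 k) j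
  have e := fun j => sEta ok j
  have s1 := ok.ss
  have s2 := fun j k l => ok.sD (s1 k l) j
  unfold Sl.Hc
  refine contDiffOn_const.mul (Sm.sum _ fun j _ => Sm.sum _ fun k _ => ?_)
  have t1 := ((s1 i j).mul (s1 k l)).mul ((d2 j k).add (d2 k j))
  have t2 := (((s1 i j).mul ((s2 j k l).add ((e j).mul (s1 k l)))).add
    ((s1 l j).mul ((s2 j k i).add ((e j).mul (s1 k i))))).mul (d1 k)
  have t3 := ((s1 j k).mul (d1 j)).mul (s2 k i l)
  have t4 := (contDiffOn_const (c := (2 : ℝ)).mul (((s1 j k).mul (d1 j)).mul (e k))).mul (s1 i l)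
  exact ((t1.add t2).sub t3).sub t4

theorem c_HH (ok : σ.Ok U θ) (hW : Sm U W) (hχ : Sm U χ) :
    ContinuousOn (fun z => H168.INF.HH σ W z fun i => σ.D i χ z) U := by
  have h : Sm U fun z => H168.INF.HH σ W z fun i => σ.D i χ z :=
    Sm.sum _ fun i _ => Sm.sum _ fun l _ => ((sHc ok hW i l).mul (ok.sD hχ i)).mul (ok.sD hχ l)
  exact h.continuousOn

theorem c_cw (ok : σ.Ok U θ) (hW : Sm U W) (hχ : Sm U χ) (hl : ContinuousOn lam U) :
    ContinuousOn (H168.INF.cw σ W χ lam) U :=
  (((continuousOn_const.mul hl).mul (ok.sG hχ hχ).continuousOn).add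
    (continuousOn_const.mul (c_HH ok hW hχ))).add
    (continuousOn_const.mul (hχ.continuousOn.mul (ok.sG hχ (ok.sL hW)).continuousOn).abs)

theorem c_kH (ok : σ.Ok U θ) (hW : Sm U W) (hχ : Sm U χ) (hl : ContinuousOn lam U) :
    ContinuousOn (H168.INF.kH σ W χ lam) U :=
  (((continuousOn_const.mul hl).mul (ok.sG hχ hχ).continuousOn).add
    (continuousOn_const.mul (c_HH ok hW hχ).abs)).add
    (continuousOn_const.mul (hχ.continuousOn.mul (ok.sG hχ (ok.sL hW)).continuousOn).abs)

theorem ct_MU (ok : σ.Ok U θ) (ot : τ.Ok U θ) (hW : Sm U W) (h1 : ContinuousOn m₁ U)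
    (h2 : ContinuousOn m₂ U) : (H303.F.MU σ τ W m₁ m₂ κ₀).Ct U :=
  ⟨continuousOn_const, h1, h2, continuousOn_const,
    continuousOn_const.mul (h1.mul (s_F ok hW).continuousOn),
    continuousOn_const.mul (h2.mul (s_F ot hW).continuousOn), continuousOn_const,
    continuousOn_const⟩

theorem ct_coU (ok : σ.Ok U θ) (ot : τ.Ok U θ) (hχ : Sm U χ) (hΩ : IsOpen Ω)
    (h1 : ContinuousOn m₁ Ω) (h2 : ContinuousOn m₂ Ω) (hs : U ∩ tsupport χ ⊆ Ω) :
    (H303.F.coU σ τ m₁ m₂ χ η).Ct U := by
  have a : ∀ {m : E → ℝ} {σ : Sl E ι}, σ.Ok U θ → ContinuousOn m Ω →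
      ContinuousOn (fun z => 3 / η * (m z * σ.Γ χ χ z)) U := by
    intro m σ ok hm
    refine continuousOn_const.mul ((c_supp ok.op hΩ (ok.sG hχ hχ).continuousOn hm
      fun z hz => hs ⟨hz.1, G_supp σ χ hz.2⟩).congr fun z _ => ?_)
    exact mul_comm _ _
  exact ⟨continuousOn_const, continuousOn_const, continuousOn_const, continuousOn_const,
    a ok h1, a ot h2, continuousOn_const, continuousOn_const⟩

end gen

variable {n : ℕ} {q : Cst} {d : Pk n}

theorem c_Θ1 (c : CF q d) : Continuous fun z : VV n => deriv d.Θ (d.l z.1) :=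
  ((c.ok.Θs.continuous_deriv (by norm_num)).comp (c.ok.lev.sm.continuous.comp continuous_fst))

theorem c_Θ2 (c : CF q d) : Continuous fun z : VV n => deriv d.Θ (d.l z.2) :=
  ((c.ok.Θs.continuous_deriv (by norm_num)).comp (c.ok.lev.sm.continuous.comp continuous_snd))

/-! ### `iF` -/

theorem cjφ (c : CF q d) : ContinuousOn (jφ q d) (CF.Om d) := by
  have h0 : Continuous d.u0 := c.s.u0.continuous
  have h1 : Continuous (prS q.e₁) := c.r.pp.contDiff_Ph.continuous
  have h2 : Continuous fun z : VV n => prS q.e₁ (d.r2 z) := h1.comp c.cr2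
  exact h0.continuousOn.add (h2.continuousOn.log fun z hz => (c.r.pp.S_pos hz).ne')

theorem cnn (c : CF q d) : ContinuousOn (H269.INF.nn q d) (CF.Om d) :=
  c.cNa.continuousOn.add ((c.ok.sl.sm 1 0).continuousOn.comp
    ((cjφ c).prodMk c.crz.continuousOn) fun z hz => CF.crz0 hz)

theorem sup_iF (c : CF q d) (hi : InfC q) (hq : Rq d) : tsupport (d.ch q .iF) ⊆ CF.Om d := by
  intro z hz
  have h1 := (far_supp hi c.ok hz).q
  have h2 := hi.κ0
  have h3 := c.R0
  have h4 : 0 < √(HY.sq (z.1 - z.2)) := lt_of_lt_of_le (by positivity) h1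
  have h5 : 0 < qq z := Real.sqrt_pos.1 h4
  have h6 := (hq z).1
  show 0 < d.r2 z
  linarith

theorem iF_ct (c : CF q d) (hi : InfC q) (hq : Rq d) :
    ((FM0 .iF q d).sm fun z => d.ch q .iF z ^ 2).Ct univ ∧ (FC0 .iF q d).Ct univ := by
  have ox' := H960.W.Ok_mono c.ox c.oOm (subset_univ _)
  have oy' := H960.W.Ok_mono c.oy c.oOm (subset_univ _)
  have h1 : ContinuousOn (H303.F.mX (1 / 100) q d) (CF.Om d) :=
    continuousOn_const.mul ((cnn c).add (c_Θ1 c).continuousOn)
  have h2 : ContinuousOn (H303.F.mY (1 / 100) q d) (CF.Om d) :=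
    continuousOn_const.mul ((cnn c).add (c_Θ2 c).continuousOn)
  have hs := sup_iF c hi hq
  exact ⟨Q8.Ct.supp2 isOpen_univ c.oOm (c.s.ch _).continuous.continuousOn
    (ct_MU ox' oy' c.W.contDiffOn h1 h2) fun z hz => hs hz.2,
    ct_coU c.ox c.oy (c.s.ch _).contDiffOn c.oOm h1 h2 fun z hz => hs hz.2⟩

/-! ### `iS` -/

theorem iS_ct (c : CF q d) :
    ((FM0 .iS q d).sm fun z => d.ch q .iS z ^ 2).Ct univ ∧ (FC0 .iS q d).Ct univ := by
  have hW : Sm univ (d.W q) := c.W.contDiffOn
  have hχ : Sm univ (d.ch q .iS) := (c.s.ch .iS).contDiffOn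
  have n1 : Continuous (H380.INF.nX q d) := continuous_const.add (c_Θ1 c)
  have n2 : Continuous (H380.INF.nY q d) := continuous_const.add (c_Θ2 c)
  have l1 : ContinuousOn (H380.INF.lmS q d) univ := (continuous_const.mul n1).continuousOn
  have l2 : ContinuousOn (H380.INF.muS q d) univ := (continuous_const.mul n2).continuousOn
  have s1 := (s_F c.ox hW).continuousOn
  have s2 := (s_F c.oy hW).continuousOn
  have m : (H380.INF.MiS q d).Ct univ :=
    ⟨continuousOn_const, l1.div_const _, l2.div_const _, continuousOn_const,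
      ((l1.mul s1).div_const _).add
        (continuousOn_const.mul ((continuous_const.mul n1).pow 2).continuousOn),
      ((l2.mul s2).div_const _).add
        (continuousOn_const.mul ((continuous_const.mul n2).pow 2).continuousOn),
      continuousOn_const, continuousOn_const⟩
  exact ⟨Q8.Ct.sm ((c.s.ch _).continuous.pow 2).continuousOn m,
    ⟨continuousOn_const, continuousOn_const, continuousOn_const, continuousOn_const,
      c_cw c.ox hW hχ l1, c_cw c.oy hW hχ l2, continuousOn_const, continuousOn_const⟩⟩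

/-! ### `iH` -/

theorem iH_ct (c : CF q d) :
    ((FM0 .iH q d).sm fun z => d.ch q .iH z ^ 2).Ct univ ∧ (FC0 .iH q d).Ct univ := by
  have hW : Sm univ (d.W q) := c.W.contDiffOn
  have hχ : Sm univ (d.ch q .iH) := (c.s.ch .iH).contDiffOn
  have hl := c.ok.lev.sm.continuous
  have hP := c.ok.ret.sm.continuous
  have hN : Continuous (H168.INF.hN q d) := c.ok.Φ's.continuous.comp
    ((hl.comp (hP.comp continuous_fst)).add (hl.comp (hP.comp continuous_snd)))
  have n1 : Continuous (H168.INF.hX q d) := hN.add (c_Θ1 c)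
  have n2 : Continuous (H168.INF.hY q d) := hN.add (c_Θ2 c)
  have l1 : ContinuousOn (H168.INF.lmH q d) univ := (continuous_const.mul n1).continuousOn
  have l2 : ContinuousOn (H168.INF.muH q d) univ := (continuous_const.mul n2).continuousOn
  have s1 := (s_F c.ox hW).continuousOn
  have s2 := (s_F c.oy hW).continuousOn
  have m : (H168.INF.MiH q d).Ct univ :=
    ⟨continuousOn_const, l1.div_const _, l2.div_const _, continuousOn_const,
      ((l1.mul s1).div_const _).add ((l1.pow 2).div_const _),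
      ((l2.mul s2).div_const _).add ((l2.pow 2).div_const _),
      continuousOn_const, continuousOn_const⟩
  exact ⟨Q8.Ct.sm ((c.s.ch _).continuous.pow 2).continuousOn m,
    ⟨continuousOn_const, continuousOn_const, continuousOn_const, continuousOn_const,
      c_kH c.ox hW hχ l1, c_kH c.oy hW hχ l2, continuousOn_const, continuousOn_const⟩⟩

end Vale.Agent.P088.R2.H591.X
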