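import Vale.Agent.P088.R2.H591.X.F0
import Vale.Agent.P088.R2.H493.EP.CtL
import Vale.Agent.P088.R2.H650.E.Off

/-!
# P088, stage 3, EST': continuity of the letters of the passes
-/

open Set Filter MeasureTheory
open scoped ContDiff Topology Matrix

noncomputable section

namespace Vale.Agent.P088.R2.H591.X

open Vale.Agent.P088.LR Vale.Agent.P088.HY
open Vale.Agent.P088.R2.H31.EP
open Vale.Agent.P088.R2.H551.E Vale.Agent.P088.R2.H961.GW Vale.Agent.P088.R2.H960.W
open Vale.Agent.P088.R2.H867.EP (Zo Off)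
open Vale.Agent.P088.R2.H455.E
open Vale.Agent.P088.R2.H341.EP
open Vale.Agent.P088.R2.H493.EP (CF evCF ct_MP ct_MPm)
open Vale.Agent.P088.R2.H650.E (ev0 D0 G0l G0r)
open Vale.Agent.P088.R2.H660.P (dD sdD omP)

variable {n : ℕ} {q : Cst} {d : Pk n}

theorem omP_ct (c : CF q d) {χ : VV n → ℝ} (hχ : ContDiff ℝ ∞ χ) :
    Continuous (omP d χ) ∧ tsupport (omP d χ) ⊆ tsupport χ := by
  have h := hχ.contDiffOn (s := univ)
  constructor
  · have h1 := (sdD c.ox h).add (sdD c.oy h)
    have h2 := (h1.add ((c.ox.sL h).pow 2)).add ((c.oy.sL h).pow 2)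
    exact continuousOn_univ.1 h2.continuousOn
  · refine supp_of fun z hz => ?_
    have e1 : dD d.sx χ z = 0 := Finset.sum_eq_zero fun i _ => by rw [D0 _ hz i]; norm_num
    have e2 : dD d.sy χ z = 0 := Finset.sum_eq_zero fun i _ => by rw [D0 _ hz i]; norm_num
    have e3 : ∀ σ : Sl (VV n) (Fin n), σ.Λ χ z = 0 := fun σ => by
      refine Finset.sum_eq_zero fun i _ => Finset.sum_eq_zero fun j _ => ?_
      rw [D0 σ (fun h => hz (D_supp σ χ j h)) i, D0 σ hz j]
      ring
    unfold omP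
    rw [e1, e2, e3, e3]
    norm_num

/-- A product with a function of the diagonal-free set. -/
theorem c_sup' (c : CF q d) {f g : VV n → ℝ} (hf : Continuous f) (hg : ContinuousOn g (CF.Om d))
    (hs : tsupport f ⊆ CF.Om d) : ContinuousOn (fun z => f z * g z) univ :=
  c_supp isOpen_univ c.oOm hf.continuousOn hg fun _ hz => hs hz.2

theorem pass_ct (c : CF q d) {k : Zo} (hk : Off k) {r C : ℝ} :
    (((H660.P.MP d.sx d.sy (d.W q) (H747.A.GG q d) r).sm fun z => d.ch q k z ^ 2).Ct univ ∧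
      (H660.P.coP d.sx d.sy (d.W q) (H747.A.GG q d) (omP d (d.ch q k)) C).Ct univ) ∧
    (((H660.P.MPm d.sx d.sy (d.W q) (H747.A.GG q d) r).sm fun z => d.ch q k z ^ 2).Ct univ ∧
      (H660.P.coPm d.sx d.sy (d.W q) (H747.A.GG q d) (omP d (d.ch q k)) C).Ct univ) := by
  have ox' := H960.W.Ok_mono c.ox c.oOm (subset_univ _)
  have oy' := H960.W.Ok_mono c.oy c.oOm (subset_univ _)
  have hW : Sm (CF.Om d) (d.W q) := c.W.contDiffOn
  have hs : tsupport (d.ch q k) ⊆ CF.Om d := fun z hz => c.off hk hz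
  have ho := omP_ct c (c.s.ch k)
  have hs' := ho.2.trans hs
  have s1 := (s_F ox' hW).continuousOn
  have s2 := (s_F oy' hW).continuousOn
  have o1 : ContinuousOn (fun z => C * omP d (d.ch q k) z) univ :=
    continuousOn_const.mul ho.1.continuousOn
  have m : ∀ {g : VV n → ℝ}, ContinuousOn g (CF.Om d) →
      ContinuousOn (fun z => C * (omP d (d.ch q k) z * g z)) univ := fun hg =>
    continuousOn_const.mul (c_sup' c ho.1 hg hs')
  refine ⟨⟨Q8.Ct.supp2 isOpen_univ c.oOm (c.s.ch k).continuous.continuousOn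
    (ct_MP ox' oy' hW c.cGG) fun z hz => hs hz.2, ?_⟩,
    ⟨Q8.Ct.supp2 isOpen_univ c.oOm (c.s.ch k).continuous.continuousOn
    (ct_MPm ox' oy' hW c.cGG) fun z hz => hs hz.2, ?_⟩⟩
  · exact ⟨continuousOn_const, o1, o1, continuousOn_const, m (c.cGG.add s1), m s2,
      continuousOn_const, continuousOn_const⟩
  · exact ⟨continuousOn_const, o1, o1, continuousOn_const, m s1, m (c.cGG.add s2),
      continuousOn_const, continuousOn_const⟩

end Vale.Agent.P088.R2.H591.X
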