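import Vale.Agent.P088.R2.H591.X.CtP

/-!
# P088, stage 3, EST': continuity of the letters of `RSn`, `RSf`
-/

open Set Filter MeasureTheory
open scoped ContDiff Topology Matrix

noncomputable section

namespace Vale.Agent.P088.R2.H591.X

open Vale.Agent.P088.LR Vale.Agent.P088.HY
open Vale.Agent.P088.R2.H31.EP
open Vale.Agent.P088.R2.H551.E Vale.Agent.P088.R2.H961.GW Vale.Agent.P088.R2.H960.W
open Vale.Agent.P088.R2.H867.EP (Zo Off)
open Vale.Agent.P088.R2.H455.E
open Vale.Agent.P088.R2.H341.EP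
open Vale.Agent.P088.R2.H493.EP (CF evCF)

variable {n : ℕ} {q : Cst} {d : Pk n}

theorem rsn_ct (c : CF q d) : ((FM0 .RSn q d).sm fun z => d.ch q .RSn z ^ 2).Ct univ ∧
    (FC0 .RSn q d).Ct univ := by
  refine c.ctA .RSn (m := H312.S.mRS q d) (continuous_const.mul c.s.NG.continuous) fun z => ?_
  have h1 := c.σ0
  have h2 := c.R0
  have h3 := c.s.NGg z
  have h4 := c.M1
  exact mul_nonneg (by positivity) (by linarith)

/-- Off the diagonal. -/
def Oq (n : ℕ) : Set (VV n) := {z | 0 < qq z}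

theorem oOq : IsOpen (Oq n) := isOpen_lt continuous_const qq_sm.continuous

theorem mRSf_ct (c : CF q d) : ContinuousOn (H53.RS.mRSf d q) (Oq n) ∧
    ∀ z ∈ Oq n, 0 ≤ H53.RS.mRSf d q z := by
  have h1 : Continuous (prS q.e₁) := c.r.pp.contDiff_Ph.continuous
  have h2 : Continuous fun z : VV n => prS q.e₁ (qq z) := h1.comp qq_sm.continuous
  have h3 : ContinuousOn (fun z : VV n => d.u0 z + Real.log (prS q.e₁ (qq z))) (Oq n) :=
    c.s.u0.continuous.continuousOn.add (h2.continuousOn.log fun z hz =>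
      (c.r.pp.S_pos hz).ne')
  have h4 : ContinuousOn (fun z : VV n => q.D 1 0 (d.u0 z + Real.log (prS q.e₁ (qq z)), √(qq z)))
      (Oq n) := (c.ok.sl.sm 1 0).continuousOn.comp
      (h3.prodMk qq_sm.continuous.sqrt.continuousOn) fun z hz => Real.sqrt_pos.2 hz
  refine ⟨continuousOn_const.mul (c.cNa.continuousOn.add h4), fun z hz => ?_⟩
  have g1 := c.σ0
  have g2 := c.R0
  have g3 := c.Na0 z
  have g4 : 0 < q.D 1 0 (d.u0 z + Real.log (prS q.e₁ (qq z)), √(qq z)) :=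
    c.ok.sl.G_pos _ (Real.sqrt_pos.2 hz)
  exact mul_nonneg (by positivity) (add_pos g3 g4).le

/-- The bounds of the distance which are used. -/
def Rq (d : Pk n) : Prop := ∀ z, 1 / 2 * qq z ≤ d.r2 z ∧ d.r2 z ≤ 2 * qq z

theorem evRq (n : ℕ) : EvC fun q => ∀ d : Pk n, PkOk q d → Rq d :=
  (EvC.rq n).mono fun _ h d ok z => (h d ok).2 z |>.2

theorem sup_RSf (c : CF q d) (hq : Rq d) : tsupport (d.ch q .RSf) ⊆ Oq n := by
  intro z hz
  have h1 : prR q.e₁ ^ 2 ≤ d.r2 z := by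
    refine closure_minimal (s := Function.support (d.ch q .RSf))
      (t := {z | prR q.e₁ ^ 2 ≤ d.r2 z}) (fun w hw => ?_)
      (isClosed_le continuous_const c.cr2) hz
    exact sd_RSf (Function.mem_support.1 hw) c.s.cp
  have h2 : 0 < prR q.e₁ := prR_pos q.e₁
  have h3 := (hq z).2
  have h4 := pow_pos h2 2
  show 0 < qq z
  linarith

theorem rsf_ct (c : CF q d) (hq : Rq d) :
    ((FM0 .RSf q d).sm fun z => d.ch q .RSf z ^ 2).Ct univ ∧ (FC0 .RSf q d).Ct univ := by
  have ox' := H960.W.Ok_mono c.ox oOq (subset_univ _)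
  have oy' := H960.W.Ok_mono c.oy oOq (subset_univ _)
  obtain ⟨h1, h2⟩ := mRSf_ct c
  have hs := sup_RSf c hq
  exact ⟨Q8.Ct.supp2 isOpen_univ oOq (c.s.ch _).continuous.continuousOn
    (ct_MA ox' oy' c.W.contDiffOn h1) fun z hz => hs hz.2,
    ct_coA c.ox c.oy c.W.contDiffOn (c.s.ch _).contDiffOn oOq h1 h2 fun z hz => hs hz.2⟩

end Vale.Agent.P088.R2.H591.X
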